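import Vale.Agent.P039.B745.Cyc

/-! The sum of the signs over an alternating cycle is `± 3`. -/

set_option linter.all false

namespace Vale.Agent.P039.B745

open Finset

def mB (z : Fin 3 → Bool) : ℕ := (univ.filter fun i => z i = true).card
def qB (z : Fin 3 → Bool) : ℕ := (univ.filter fun j => z (j + 1) = true ∨ z (j + 2) = true).card
def tB (z : Fin 3 → Bool) : ℕ := if z 0 = true ∨ z 1 = true ∨ z 2 = true then 1 else 0
def kB (z : Fin 3 → Bool) : ℤ := 3 * qB z - mB z - 6 * tB z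

theorem kB_not (z : Fin 3 → Bool) : kB (fun i => ! z i) = - kB z := by revert z; decide
theorem kB_const (z : Fin 3 → Bool) : (∀ j, z (j + 1) = z (j + 2)) → kB z = 0 := by
  revert z; decide
theorem kB_eps' : ∀ (z : Fin 3 → Bool) (f g : Fin 3), (f ≠ g ∧ z (f + 1) = true ∧
    z (f + 2) = false ∧ z (g + 1) = false ∧ z (g + 2) = true) → kB z = eps (g - f) := by
  decide
theorem kB_eps (z : Fin 3 → Bool) (f g : Fin 3) (h1 : f ≠ g) (h2 : z (f + 1) = true)
    (h3 : z (f + 2) = false) (h4 : z (g + 1) = false) (h5 : z (g + 2) = true) :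
    kB z = eps (g - f) := kB_eps' z f g ⟨h1, h2, h3, h4, h5⟩

variable {B W V : Type} [Fintype B] [Fintype W] [Fintype V]
  [DecidableEq B] [DecidableEq W] [DecidableEq V]

/-- the position of a black triangle -/
def zS (M : Net B W V) (S : Finset W) (b : B) (i : Fin 3) : Bool := decide (M.e i b ∈ S)

theorem sum_mB (M : Net B W V) (S : Finset W) : ∑ b, mB (zS M S b) = 3 * S.card := by
  unfold mB zS
  simp only [decide_eq_true_eq, Finset.card_filter]
  rw [Finset.sum_comm]
  have h1 : ∀ i : Fin 3, ∑ b, (if M.e i b ∈ S then 1 else 0) = S.card := by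
    intro i
    rw [Equiv.sum_comp (M.e i) (fun w => if w ∈ S then 1 else 0)]
    simp
  rw [Finset.sum_congr rfl fun i _ => h1 i]
  simp

theorem sum_qB (M : Net B W V) (S : Finset W) :
    ∑ b, qB (zS M S b) = (univ.filter fun x => M.lJ x ∈ S ∨ M.rJ x ∈ S).card := by
  unfold qB zS
  simp only [decide_eq_true_eq, Finset.card_filter]
  rw [Fintype.sum_prod_type]
  rfl

theorem hex (M : Net B W V) (φ : B ⊕ V → ℚ) (w : W)
    (h : ∀ x, (M.lJ x = w ∨ M.rJ x = w) → φ (Net.sJ x) = φ (M.tJ x)) :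
    (∀ i, φ (Sum.inl ((M.e i).symm w)) = φ (Sum.inr (M.cw 0 w))) ∧
      (∀ j, φ (Sum.inr (M.cw j w)) = φ (Sum.inr (M.cw 0 w))) := by
  have key : ∀ i j : Fin 3, i ≠ j →
      φ (Sum.inl ((M.e i).symm w)) = φ (Sum.inr (M.cw j w)) := by
    intro i j hij
    have h1 : φ (Sum.inl ((M.e i).symm w)) = φ (Sum.inr (M.c j ((M.e i).symm w))) := by
      apply h ((M.e i).symm w, j)
      rcases fcase i j with rfl | rfl | rfl
      · exact absurd rfl hij
      · left; exact Equiv.apply_symm_apply _ _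
      · right; exact Equiv.apply_symm_apply _ _
    rw [h1, ← M.cw_e hij, Equiv.apply_symm_apply]
  have a12 : φ (Sum.inr (M.cw 1 w)) = φ (Sum.inr (M.cw 2 w)) :=
    (key 0 1 (by decide)).symm.trans (key 0 2 (by decide))
  have a02 : φ (Sum.inr (M.cw 0 w)) = φ (Sum.inr (M.cw 2 w)) :=
    (key 1 0 (by decide)).symm.trans (key 1 2 (by decide))
  have hj : ∀ j, φ (Sum.inr (M.cw j w)) = φ (Sum.inr (M.cw 0 w)) := by
    intro j
    fin_cases j
    · rfl
    · show φ (Sum.inr (M.cw 1 w)) = _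
      rw [a12, a02]
    · show φ (Sum.inr (M.cw 2 w)) = _
      rw [a02]
  refine ⟨fun i => ?_, hj⟩
  rw [key i (i + 1) (fne1 i).symm, hj]

namespace Cyc

variable {M : Net B W V} {b0 : B} {f g : B → Fin 3} {C : Finset B} {π : B → B}

theorem region_conn (h : Cyc M b0 f g C π) (hM : M.Conn) (S : Finset W) (hS : ∃ w, w ∉ S)
    (h1 : ∀ x, ¬ On f g C x → (M.lJ x ∈ S ↔ M.rJ x ∈ S))
    (h2 : ∀ b ∈ C, ¬ (M.lJ (b, f b) ∈ S ↔ M.rJ (b, f b) ∈ S))
    (φ : B ⊕ V → ℚ) (hφ : ∀ x, (M.lJ x ∈ S ∨ M.rJ x ∈ S) → φ (Net.sJ x) = φ (M.tJ x)) :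
    ∃ a, ∀ w ∈ S, (∀ i, φ (Sum.inl ((M.e i).symm w)) = a) ∧
      (∀ j, φ (Sum.inr (M.cw j w)) = a) := by
  have hhex : ∀ w ∈ S, (∀ i, φ (Sum.inl ((M.e i).symm w)) = φ (Sum.inr (M.cw 0 w))) ∧
      (∀ j, φ (Sum.inr (M.cw j w)) = φ (Sum.inr (M.cw 0 w))) := by
    intro w hw
    apply hex
    intro x hx
    apply hφ
    rcases hx with rfl | rfl
    · exact Or.inl hw
    · exact Or.inr hw
  obtain ⟨b, hb⟩ := h.ne
  obtain ⟨ws, hws, hws'⟩ : ∃ ws ∈ S, (ws = M.lJ (b, f b) ∧ M.rJ (b, f b) ∉ S) ∨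
      (ws = M.rJ (b, f b) ∧ M.lJ (b, f b) ∉ S) := by
    have := h2 b hb
    by_cases hl : M.lJ (b, f b) ∈ S
    · refine ⟨_, hl, Or.inl ⟨rfl, fun hr => this ⟨fun _ => hr, fun _ => hl⟩⟩⟩
    · refine ⟨M.rJ (b, f b), ?_, Or.inr ⟨rfl, hl⟩⟩
      by_contra hr
      exact this ⟨fun h => absurd h hl, fun h => absurd h hr⟩
  refine ⟨φ (Sum.inr (M.cw 0 ws)), fun w hw => ?_⟩
  have key : φ (Sum.inr (M.cw 0 w)) = φ (Sum.inr (M.cw 0 ws)) := by
    let I' := S.filter fun w' => φ (Sum.inr (M.cw 0 w')) = φ (Sum.inr (M.cw 0 w))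
    have hI' : ∀ w', w' ∈ I' ↔ w' ∈ S ∧ φ (Sum.inr (M.cw 0 w')) = φ (Sum.inr (M.cw 0 w)) := by
      intro w'; simp [I']
    have h3 : ∀ x, ¬ On f g C x → bd M (ind I') x = 0 := by
      intro x hx
      have h4 := h1 x hx
      have h5 : M.lJ x ∈ I' ↔ M.rJ x ∈ I' := by
        rw [hI', hI', h4]
        by_cases hr : M.rJ x ∈ S
        · have hl := h4.2 hr
          have h6 := (hhex _ hl).1 (x.2 + 1)
          have h7 := (hhex _ hr).1 (x.2 + 2)
          unfold Net.lJ at h6
          unfold Net.rJ at h7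
          rw [Equiv.symm_apply_apply] at h6 h7
          have h8 : φ (Sum.inr (M.cw 0 (M.lJ x))) = φ (Sum.inr (M.cw 0 (M.rJ x))) :=
            h6.symm.trans h7
          rw [h8]
        · simp [hr]
      unfold bd ind
      simp only [h5, sub_self]
    have h4 : bd M (ind I') (b, f b) ≠ 0 := by
      intro h5
      have h6 : ∀ x, bd M (ind I') x = 0 := by
        rintro ⟨b', j⟩
        by_cases ho : On f g C (b', j)
        · obtain ⟨hb', h7 | h7⟩ := ho
          · simp only at h7 hb'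
            subst h7
            rw [h.push_all _ h3 hb hb', h5]
          · simp only at h7 hb'
            subst h7
            rw [h.bd_fg _ h3 hb', h.push_all _ h3 hb hb', h5, neg_zero]
        · exact h3 _ ho
      have h7 := hM.jA b0 (ind I') (fun x => by have := h6 x; unfold bd at this; linarith)
      obtain ⟨w', hw'⟩ := hS
      have h8 : ind I' w = ind I' w' := (h7 _).trans (h7 _).symm
      unfold ind at h8
      rw [if_pos ((hI' w).2 ⟨hw, rfl⟩), if_neg (fun h9 => hw' ((hI' w').1 h9).1)] at h8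
      exact one_ne_zero h8
    have h5 : ws ∈ I' := by
      by_contra h6
      apply h4
      unfold bd ind
      rcases hws' with ⟨rfl, h7⟩ | ⟨rfl, h7⟩
      · rw [if_neg h6, if_neg (fun h9 => h7 ((hI' _).1 h9).1), sub_self]
      · rw [if_neg h6, if_neg (fun h9 => h7 ((hI' _).1 h9).1), sub_self]
    exact ((hI' ws).1 h5).2.symm
  exact ⟨fun i => ((hhex w hw).1 i).trans key, fun j => ((hhex w hw).2 j).trans key⟩

theorem region_le (h : Cyc M b0 f g C π) (hM : M.Conn) (S : Finset W) (hS : ∃ w, w ∉ S)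
    (hSne : S.Nonempty)
    (h1 : ∀ x, ¬ On f g C x → (M.lJ x ∈ S ↔ M.rJ x ∈ S))
    (h2 : ∀ b ∈ C, ¬ (M.lJ (b, f b) ∈ S ↔ M.rJ (b, f b) ∈ S)) :
    6 * (tB (zS M S b0) : ℤ) ≤ ∑ b, kB (zS M S b) + 3 := by
  let Z : Finset (B ⊕ (B ⊕ Fin 3)) := univ.filter fun y =>
    Sum.elim (fun b => decide (tB (zS M S b) = 1))
      (Sum.elim (fun b => decide (b ≠ b0 ∧ tB (zS M S b) = 1))
        (fun _ => decide (tB (zS M S b0) = 1))) y = true
  let F : B ⊕ (B ⊕ Fin 3) → B ⊕ V := Sum.elim Sum.inl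
      (Sum.elim (fun b => Sum.inr (M.c (f b) b)) (fun j => Sum.inr (M.c j b0)))
  have hFinj : Set.InjOn F Z := by
    rintro (x | x | x) hx (y | y | y) hy hxy
    · simp only [F, Sum.elim_inl, Sum.inl.injEq] at hxy; rw [hxy]
    · simp [F] at hxy
    · simp [F] at hxy
    · simp [F] at hxy
    · simp only [F, Sum.elim_inl, Sum.elim_inr, Sum.inr.injEq] at hxy
      simp only [Z, Finset.coe_filter, Finset.mem_univ, true_and, Set.mem_setOf_eq,
        Sum.elim_inl, Sum.elim_inr, decide_eq_true_eq] at hx hy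
      rw [h.finj x hx.1 y hy.1 hxy]
    · simp only [F, Sum.elim_inl, Sum.elim_inr, Sum.inr.injEq] at hxy
      simp only [Z, Finset.coe_filter, Finset.mem_univ, true_and, Set.mem_setOf_eq,
        Sum.elim_inl, Sum.elim_inr, decide_eq_true_eq] at hx hy
      exact absurd hxy (h.foff x hx.1 y)
    · simp [F] at hxy
    · simp only [F, Sum.elim_inl, Sum.elim_inr, Sum.inr.injEq] at hxy
      simp only [Z, Finset.coe_filter, Finset.mem_univ, true_and, Set.mem_setOf_eq,
        Sum.elim_inl, Sum.elim_inr, decide_eq_true_eq] at hx hy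
      exact absurd hxy.symm (h.foff y hy.1 x)
    · simp only [F, Sum.elim_inl, Sum.elim_inr, Sum.inr.injEq] at hxy
      rw [M.cls _ _ _ _ hxy]
  -- every point of `Z.image F` is touched by `S`
  have hT : ∀ b, tB (zS M S b) = 1 → ∃ i, M.e i b ∈ S := by
    intro b hb
    unfold tB zS at hb
    split_ifs at hb with h3
    · simp only [decide_eq_true_eq] at h3
      rcases h3 with h3 | h3 | h3
      · exact ⟨0, h3⟩
      · exact ⟨1, h3⟩
      · exact ⟨2, h3⟩
  have hpt : ∀ b, tB (zS M S b) = 1 → ∀ j, (∃ w ∈ S, M.cw j w = M.c j b) ∨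
      ¬ (∃ i, i ≠ j ∧ M.e i b ∈ S) := by
    intro b hb j
    by_cases h3 : ∃ i, i ≠ j ∧ M.e i b ∈ S
    · obtain ⟨i, hij, hi⟩ := h3
      exact Or.inl ⟨_, hi, M.cw_e hij b⟩
    · exact Or.inr h3
  obtain ⟨w0, hw0⟩ := hSne
  have hrank := rank_le M.lJ M.rJ (Net.sJ (B := B) (V := V)) M.tJ M.orthoJ S
    (insert (Sum.inr (M.cw 0 w0)) (Z.image F)) (Sum.inr (M.cw 0 w0)) (Finset.mem_insert_self _ _)
    (fun n hn hn' p => by
      have h3 := hM.jA b0 n hn'
      obtain ⟨w, hw⟩ := hS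
      rw [h3 p, ← h3 w, hn w hw])
    (by
      intro φ hφ x hx
      obtain ⟨a, ha⟩ := h.region_conn hM S hS h1 h2 φ hφ
      have h0 : φ (Sum.inr (M.cw 0 w0)) = a := (ha w0 hw0).2 0
      rw [h0]
      rcases Finset.mem_insert.1 hx with rfl | hx
      · exact h0
      obtain ⟨y, hy, rfl⟩ := Finset.mem_image.1 hx
      rcases y with b | b | j
      · simp only [Z, Finset.mem_filter, Finset.mem_univ, true_and, Sum.elim_inl,
          decide_eq_true_eq] at hy
        obtain ⟨i, hi⟩ := hT b hy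
        have h3 := (ha _ hi).1 i
        rw [Equiv.symm_apply_apply] at h3
        exact h3
      · simp only [Z, Finset.mem_filter, Finset.mem_univ, true_and, Sum.elim_inl,
          Sum.elim_inr, decide_eq_true_eq] at hy
        show φ (Sum.inr (M.c (f b) b)) = a
        -- a white of `b` at the face `f b` lies in `S`
        have h3 : ∃ i, i ≠ f b ∧ M.e i b ∈ S := by
          by_cases hbC : b ∈ C
          · have h4 := h2 b hbC
            by_cases hl : M.lJ (b, f b) ∈ S
            · exact ⟨f b + 1, fne1 _, hl⟩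
            · refine ⟨f b + 2, fne2 _, ?_⟩
              by_contra hr
              exact h4 ⟨fun h => absurd h hl, fun h => absurd h hr⟩
          · have h4 : ∀ j, M.e (j + 1) b ∈ S ↔ M.e (j + 2) b ∈ S := fun j =>
              h1 (b, j) (fun ho => hbC ho.1)
            obtain ⟨i, hi⟩ := hT b hy.2
            refine ⟨f b + 1, fne1 _, ?_⟩
            rcases fcase i (f b) with h5 | h5 | h5
            · rw [h5] at hi
              have h6 := h4 (f b + 1)
              rw [f12, f11] at h6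
              have h7 := h4 (f b)
              exact h7.2 (h6.2 hi)
            · rw [← h5]; exact hi
            · rw [h5] at hi; exact (h4 (f b)).2 hi
        obtain ⟨i, hi, hiS⟩ := h3
        have h4 := (ha _ hiS).2 (f b)
        rw [M.cw_e hi] at h4
        exact h4
      · simp only [Z, Finset.mem_filter, Finset.mem_univ, true_and, Sum.elim_inl,
          Sum.elim_inr, decide_eq_true_eq] at hy
        show φ (Sum.inr (M.c j b0)) = a
        have h4 : ∀ j, M.e (j + 1) b0 ∈ S ↔ M.e (j + 2) b0 ∈ S := fun j =>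
          h1 (b0, j) (fun ho => h.off ho.1)
        obtain ⟨i, hi⟩ := hT b0 hy
        have h5 : M.e (j + 1) b0 ∈ S := by
          rcases fcase i j with h5 | h5 | h5
          · rw [h5] at hi
            have h6 := h4 (j + 1)
            rw [f12, f11] at h6
            have h7 := h4 j
            exact h7.2 (h6.2 hi)
          · rw [← h5]; exact hi
          · rw [h5] at hi; exact (h4 j).2 hi
        have h6 := (ha _ h5).2 j
        rw [M.cw_e (fne1 j)] at h6
        exact h6)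
  have hle : (Z.image F).card ≤ (insert (Sum.inr (M.cw 0 w0)) (Z.image F)).card :=
    Finset.card_le_card (Finset.subset_insert _ _)
  rw [Finset.card_image_of_injOn hFinj] at hle
  rw [← sum_qB] at hrank
  have hZ : (Z.card : ℤ) = 2 * ∑ b, (tB (zS M S b) : ℤ) + 2 * tB (zS M S b0) := by
    have h01 : ∀ b, (if tB (zS M S b) = 1 then (1 : ℤ) else 0) = tB (zS M S b) := by
      intro b
      unfold tB
      split_ifs <;> simp_all
    simp only [Z, Finset.card_filter]
    push_cast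
    rw [Fintype.sum_sum_type, Fintype.sum_sum_type]
    simp only [Sum.elim_inl, Sum.elim_inr, decide_eq_true_eq, h01]
    have h3 : ∑ b, (if b ≠ b0 ∧ tB (zS M S b) = 1 then (1 : ℤ) else 0) =
        ∑ b, (tB (zS M S b) : ℤ) - tB (zS M S b0) := by
      rw [eq_sub_iff_add_eq, ← Finset.sum_erase_add univ _ (Finset.mem_univ b0)]
      rw [← Finset.sum_erase_add univ (fun b => (tB (zS M S b) : ℤ)) (Finset.mem_univ b0)]
      rw [if_neg (by simp), add_zero]
      congr 1
      apply Finset.sum_congr rfl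
      intro b hb
      rw [← h01 b]
      simp [Finset.ne_of_mem_erase hb]
    rw [h3]
    simp
    ring
  have h3 := sum_mB M S
  have h4 : (3 * S.card : ℤ) = ∑ b, (mB (zS M S b) : ℤ) := by
    rw [← Nat.cast_sum, h3]; push_cast; ring
  have h5 : ∑ b, kB (zS M S b) = 3 * ∑ b, (qB (zS M S b) : ℤ) - ∑ b, (mB (zS M S b) : ℤ) -
      6 * ∑ b, (tB (zS M S b) : ℤ) := by
    unfold kB
    rw [Finset.sum_sub_distrib, Finset.sum_sub_distrib, ← Finset.mul_sum, ← Finset.mul_sum]
  have h6 : ((∑ b, qB (zS M S b) : ℕ) : ℤ) = ∑ b, (qB (zS M S b) : ℤ) := by push_cast; rfl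
  rw [h5, ← h4]
  have h7 : (S.card : ℤ) + (Z.card : ℤ) ≤ ∑ b, (qB (zS M S b) : ℤ) + 1 := by
    rw [← h6]
    have : S.card + Z.card ≤ ∑ b, qB (zS M S b) + 1 := by omega
    exact_mod_cast this
  rw [hZ] at h7
  linarith

end Cyc

end Vale.Agent.P039.B745
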