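import Vale.Agent.P039.B745.Net

/-! Alternating cycles: the two sides, and the count of third corners. -/

set_option linter.all false

namespace Vale.Agent.P039.B745

open Finset

variable {B W V : Type} [Fintype B] [Fintype W] [Fintype V]
  [DecidableEq B] [DecidableEq W] [DecidableEq V]

/-- `C` is a cycle of the two matchings `f`, `g`, directed by `π`. -/
structure Cyc (M : Net B W V) (b0 : B) (f g : B → Fin 3) (C : Finset B) (π : B → B) : Prop where
  off : b0 ∉ C
  ne : C.Nonempty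
  fg : ∀ b ∈ C, f b ≠ g b
  maps : ∀ b ∈ C, π b ∈ C
  inj : ∀ b ∈ C, ∀ b' ∈ C, π b = π b' → b = b'
  next : ∀ b ∈ C, M.c (g (π b)) (π b) = M.c (f b) b
  trans : ∀ p : B → Prop, (∀ b ∈ C, p b → p (π b)) → ∀ b ∈ C, ∀ b' ∈ C, p b → p b'
  finj : ∀ b, b ≠ b0 → ∀ b', b' ≠ b0 → M.c (f b) b = M.c (f b') b' → b = b'
  foff : ∀ b, b ≠ b0 → ∀ j, M.c (f b) b ≠ M.c j b0

/-- the sign of a black triangle -/
def eps (x : Fin 3) : ℤ := if x = 1 then 1 else if x = 2 then -1 else 0

namespace Cyc

variable {M : Net B W V} {b0 : B} {f g : B → Fin 3} {C : Finset B} {π : B → B}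

theorem surj (h : Cyc M b0 f g C π) {b : B} (hb : b ∈ C) : ∃ b' ∈ C, π b' = b := by
  have h1 : Set.SurjOn π C C :=
    Finset.surjOn_of_injOn_of_card_le π (fun b hb => h.maps b hb)
      (fun b hb b' hb' hbb => h.inj b hb b' hb' hbb) le_rfl
  obtain ⟨b', hb', hbb⟩ := h1 hb
  exact ⟨b', hb', hbb⟩

theorem ne0 (h : Cyc M b0 f g C π) {b : B} (hb : b ∈ C) : b ≠ b0 := fun h' => h.off (h' ▸ hb)

/-- the boundary of a function on the whites -/
def bd (M : Net B W V) (n : W → ℚ) (x : B × Fin 3) : ℚ := n (M.lJ x) - n (M.rJ x)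

theorem bd_sum (M : Net B W V) (n : W → ℚ) (b : B) : ∑ j, bd M n (b, j) = 0 := by
  rw [Fin.sum_univ_three]
  simp only [bd, Net.lJ, Net.rJ, show (0 : Fin 3) + 2 = 2 from rfl,
    show (0 : Fin 3) + 1 = 1 from rfl,
    show (1 : Fin 3) + 2 = 0 from rfl, show (1 : Fin 3) + 1 = 2 from rfl,
    show (2 : Fin 3) + 2 = 1 from rfl, show (2 : Fin 3) + 1 = 0 from rfl]
  ring

theorem bd_face (M : Net B W V) (n : W → ℚ) (v : V) :
    ∑ x : B × Fin 3, bd M n x * (if M.c x.2 x.1 = v then 1 else 0) = 0 := by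
  have h := M.orthoJ n (Sum.elim (fun _ => 0) (fun v' => if v' = v then 1 else 0))
  simpa [Net.tJ, Net.sJ, bd] using h

/-- `x` is a corner of the cycle -/
def On (f g : B → Fin 3) (C : Finset B) (x : B × Fin 3) : Prop :=
  x.1 ∈ C ∧ (x.2 = f x.1 ∨ x.2 = g x.1)

theorem bd_fg (h : Cyc M b0 f g C π) (n : W → ℚ)
    (hn : ∀ x, ¬ On f g C x → bd M n x = 0) {b : B} (hb : b ∈ C) :
    bd M n (b, g b) = - bd M n (b, f b) := by
  have h1 := bd_sum M n b
  have h2 : ∑ j, bd M n (b, j) = ∑ j ∈ {f b, g b}, bd M n (b, j) := by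
    symm
    apply Finset.sum_subset (Finset.subset_univ _)
    intro j _ hj
    apply hn
    rintro ⟨_, h3 | h3⟩
    · simp only at h3; exact hj (by simp [h3])
    · simp only at h3; exact hj (by simp [h3])
  rw [h2, Finset.sum_pair (h.fg b hb)] at h1
  linarith

theorem push (h : Cyc M b0 f g C π) (n : W → ℚ)
    (hn : ∀ x, ¬ On f g C x → bd M n x = 0) {b : B} (hb : b ∈ C) :
    bd M n (π b, f (π b)) = bd M n (b, f b) := by
  have h1 := bd_face M n (M.c (f b) b)
  have h2 : ∑ x : B × Fin 3, bd M n x * (if M.c x.2 x.1 = M.c (f b) b then 1 else 0) =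
      ∑ x ∈ {(b, f b), (π b, g (π b))},
        bd M n x * (if M.c x.2 x.1 = M.c (f b) b then 1 else 0) := by
    symm
    apply Finset.sum_subset (Finset.subset_univ _)
    rintro ⟨b', j⟩ _ hx
    by_cases ho : On f g C (b', j)
    · obtain ⟨hb', h3 | h3⟩ := ho
      · simp only at h3 hb'
        subst h3
        rw [if_neg, mul_zero]
        intro h4
        apply hx
        have := h.finj b' (h.ne0 hb') b (h.ne0 hb) h4
        subst this
        simp
      · simp only at h3 hb'
        subst h3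
        rw [if_neg, mul_zero]
        intro h4
        apply hx
        obtain ⟨b'', hb'', rfl⟩ := h.surj hb'
        rw [h.next b'' hb''] at h4
        have := h.finj b'' (h.ne0 hb'') b (h.ne0 hb) h4
        subst this
        simp
    · rw [hn _ ho, zero_mul]
  have hne : (b, f b) ≠ (π b, g (π b)) := by
    intro h3
    have h4 := congrArg Prod.fst h3
    have h5 := congrArg Prod.snd h3
    simp only at h4 h5
    rw [← h4] at h5
    exact h.fg b hb h5
  rw [h2, Finset.sum_pair hne] at h1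
  simp only [if_true, h.next b hb, mul_one] at h1
  rw [h.bd_fg n hn (h.maps b hb)] at h1
  linarith

theorem push_all (h : Cyc M b0 f g C π) (n : W → ℚ)
    (hn : ∀ x, ¬ On f g C x → bd M n x = 0) {b b' : B} (hb : b ∈ C) (hb' : b' ∈ C) :
    bd M n (b', f b') = bd M n (b, f b) :=
  h.trans (fun z => bd M n (z, f z) = bd M n (b, f b))
    (fun z hz hz' => (h.push n hn hz).trans hz') b hb b' hb' rfl

open Classical in
/-- the chain of the cycle -/
noncomputable def ch (f g : B → Fin 3) (C : Finset B) (x : B × Fin 3) : ℚ :=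
  if x.1 ∈ C then (if x.2 = f x.1 then 1 else 0) - (if x.2 = g x.1 then 1 else 0) else 0

theorem ch_f (h : Cyc M b0 f g C π) {b : B} (hb : b ∈ C) : ch f g C (b, f b) = 1 := by
  unfold ch
  simp [hb, h.fg b hb]

theorem ch_g (h : Cyc M b0 f g C π) {b : B} (hb : b ∈ C) : ch f g C (b, g b) = -1 := by
  unfold ch
  simp [hb, (h.fg b hb).symm]

theorem ch_off {x : B × Fin 3} (hx : ¬ On f g C x) : ch f g C x = 0 := by
  unfold ch On at *
  split_ifs with h1 h2 h3 h4
  · exact absurd ⟨h1, Or.inl h2⟩ hx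
  · exact absurd ⟨h1, Or.inl h2⟩ hx
  · exact absurd ⟨h1, Or.inr h4⟩ hx
  · simp
  · rfl

theorem ch_sum (C : Finset B) (f g : B → Fin 3) (u : B × Fin 3 → ℚ) :
    ∑ x, ch f g C x * u x = ∑ b ∈ C, (u (b, f b) - u (b, g b)) := by
  rw [Fintype.sum_prod_type]
  have h1 : ∀ b : B, ∑ j, ch f g C (b, j) * u (b, j) =
      if b ∈ C then u (b, f b) - u (b, g b) else 0 := by
    intro b
    by_cases hb : b ∈ C
    · rw [if_pos hb]
      simp only [ch, hb, if_true, sub_mul, Finset.sum_sub_distrib]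
      congr 1
      · rw [Finset.sum_eq_single (f b)]
        · simp
        · intro j _ hj; rw [if_neg hj, zero_mul]
        · simp
      · rw [Finset.sum_eq_single (g b)]
        · simp
        · intro j _ hj; rw [if_neg hj, zero_mul]
        · simp
    · rw [if_neg hb]
      simp [ch, hb]
  rw [Finset.sum_congr rfl fun b _ => h1 b, Finset.sum_ite_mem, Finset.univ_inter]

theorem ch_div (h : Cyc M b0 f g C π) (φ : B ⊕ V → ℚ) :
    ∑ x, ch f g C x * (φ (M.tJ x) - φ (Net.sJ x)) = 0 := by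
  rw [ch_sum C f g (fun x => φ (M.tJ x) - φ (Net.sJ x))]
  simp only [Net.tJ, Net.sJ]
  have h1 : ∀ b ∈ C, (φ (Sum.inr (M.c (f b) b)) - φ (Sum.inl b)) -
      (φ (Sum.inr (M.c (g b) b)) - φ (Sum.inl b)) = φ (Sum.inr (M.c (f b) b)) -
        φ (Sum.inr (M.c (g b) b)) := fun b _ => by ring
  rw [Finset.sum_congr rfl h1, Finset.sum_sub_distrib, sub_eq_zero]
  refine Finset.sum_bij (fun b _ => π b) (fun b hb => h.maps b hb)
    (fun b hb b' hb' hbb => h.inj b hb b' hb' hbb)
    (fun b hb => by obtain ⟨b', hb', hbb⟩ := h.surj hb; exact ⟨b', hb', hbb⟩)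
    (fun b hb => by rw [h.next b hb])

/-- characteristic function -/
def ind (I : Finset W) (w : W) : ℚ := if w ∈ I then 1 else 0

/-- the side of a cycle -/
theorem exists_region (h : Cyc M b0 f g C π) (hM : M.Conn)
    (hV : Fintype.card V = Fintype.card B + 2) :
    ∃ I : Finset W, ∀ x, bd M (ind I) x = ch f g C x := by
  obtain ⟨n, hn⟩ := Net.exists_side hM hV b0 (ch f g C) (h.ch_div)
  have : Nonempty W := ⟨M.e 0 b0⟩
  obtain ⟨wm, hwm⟩ := Finite.exists_max n
  refine ⟨univ.filter fun w => n w = n wm, ?_⟩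
  set I := univ.filter fun w => n w = n wm with hI
  have hmem : ∀ w, w ∈ I ↔ n w = n wm := by intro w; simp [hI]
  have h0 : ∀ x, ¬ On f g C x → bd M (ind I) x = 0 := by
    intro x hx
    have h1 := hn x
    rw [ch_off hx] at h1
    have h2 : n (M.lJ x) = n (M.rJ x) := by linarith
    unfold bd ind
    simp only [hmem, h2, sub_self]
  obtain ⟨b, hb⟩ := h.ne
  have h1 : n (M.lJ (b, f b)) = n (M.rJ (b, f b)) + 1 := by
    have := hn (b, f b)
    rw [h.ch_f hb] at this
    linarith
  have h2 : M.rJ (b, f b) ∉ I := by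
    rw [hmem]
    have := hwm (M.lJ (b, f b))
    intro h3
    linarith
  have h3 : M.lJ (b, f b) ∈ I := by
    by_contra h4
    have h5 : bd M (ind I) (b, f b) = 0 := by
      unfold bd ind
      rw [if_neg h2, if_neg h4, sub_self]
    have h6 : ∀ x, bd M (ind I) x = 0 := by
      rintro ⟨b', j⟩
      by_cases ho : On f g C (b', j)
      · obtain ⟨hb', h7 | h7⟩ := ho
        · simp only at h7 hb'
          subst h7
          rw [h.push_all _ h0 hb hb', h5]
        · simp only at h7 hb'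
          subst h7
          rw [h.bd_fg _ h0 hb', h.push_all _ h0 hb hb', h5, neg_zero]
      · exact h0 _ ho
    have h7 := hM.jA b0 (ind I) (fun x => by have := h6 x; unfold bd at this; linarith)
    have h8 : ind I wm = ind I (M.rJ (b, f b)) := (h7 wm).trans (h7 _).symm
    unfold ind at h8
    rw [if_neg h2, if_pos ((hmem wm).2 rfl)] at h8
    exact one_ne_zero h8
  have h4 : bd M (ind I) (b, f b) = 1 := by
    unfold bd ind
    rw [if_neg h2, if_pos h3, sub_zero]
  rintro ⟨b', j⟩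
  by_cases ho : On f g C (b', j)
  · obtain ⟨hb', h7 | h7⟩ := ho
    · simp only at h7 hb'
      subst h7
      rw [h.push_all _ h0 hb hb', h4, h.ch_f hb']
    · simp only at h7 hb'
      subst h7
      rw [h.bd_fg _ h0 hb', h.push_all _ h0 hb hb', h4, h.ch_g hb']
  · rw [h0 _ ho, ch_off ho]

end Cyc

end Vale.Agent.P039.B745
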