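import Vale.Agent.P039.B745.Rank

/-! Plane Eulerian triangulations given by three bijections and a labelling of the faces. -/

set_option linter.all false

namespace Vale.Agent.P039.B745

open Finset

theorem f11 (j : Fin 3) : j + 1 + 1 = j + 2 := by revert j; decide
theorem f12 (j : Fin 3) : j + 1 + 2 = j := by revert j; decide
theorem f21 (j : Fin 3) : j + 2 + 1 = j := by revert j; decide
theorem f22 (j : Fin 3) : j + 2 + 2 = j + 1 := by revert j; decide
theorem fcase (i j : Fin 3) : i = j ∨ i = j + 1 ∨ i = j + 2 := by revert i j; decide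
theorem fne1 (j : Fin 3) : j + 1 ≠ j := by revert j; decide
theorem fne2 (j : Fin 3) : j + 2 ≠ j := by revert j; decide
theorem fne12 (j : Fin 3) : j + 1 ≠ j + 2 := by revert j; decide

theorem third (i i' : Fin 3) : ∃ j : Fin 3, i ≠ j ∧ i' ≠ j := by revert i i'; decide

/-- A cubic bipartite multigraph with black vertices `B` and white vertices `W`, edges coloured by
`Fin 3`, and a labelling of its faces by `V`. -/
structure Net (B W V : Type) where
  e : Fin 3 → B ≃ W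
  c : Fin 3 → B → V
  step : ∀ j b b', e (j + 1) b' = e (j + 2) b → c j b' = c j b
  cls : ∀ j j' b b', c j b = c j' b' → j = j'
  surj : ∀ v, ∃ j b, c j b = v

variable {B W V : Type} (M : Net B W V)

namespace Net

/-- the face of class `j` at the white vertex `w` -/
def cw (j : Fin 3) (w : W) : V := M.c j ((M.e (j + 1)).symm w)

theorem cw_e1 (j : Fin 3) (b : B) : M.cw j (M.e (j + 1) b) = M.c j b := by
  simp [cw]

theorem cw_e2 (j : Fin 3) (b : B) : M.cw j (M.e (j + 2) b) = M.c j b := by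
  unfold cw
  apply M.step
  rw [Equiv.apply_symm_apply]

theorem cw_e {j i : Fin 3} (h : i ≠ j) (b : B) : M.cw j (M.e i b) = M.c j b := by
  rcases fcase i j with rfl | rfl | rfl
  · exact absurd rfl h
  · exact M.cw_e1 _ _
  · exact M.cw_e2 _ _

/-- the underlying graph is connected -/
def Conn : Prop := ∀ p : B → Prop, (∀ b b' i i', M.e i b = M.e i' b' → p b → p b') →
  ∀ b b', p b → p b'

variable {M}

theorem Conn.const (hM : M.Conn) {α : Type} (f : B → α)
    (h : ∀ b b' i i', M.e i b = M.e i' b' → f b = f b') (b b' : B) : f b = f b' := by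
  have := hM (fun x => f b = f x) (fun x y i i' hxy hx => hx.trans (h x y i i' hxy)) b b' rfl
  exact this

/-- two blacks with a common white have a common face -/
theorem common_face {b b' : B} {i i' : Fin 3} (h : M.e i b = M.e i' b') :
    ∃ j, M.c j b = M.c j b' := by
  obtain ⟨j, hj, hj'⟩ : ∃ j : Fin 3, i ≠ j ∧ i' ≠ j := third i i'
  exact ⟨j, by rw [← M.cw_e hj b, h, M.cw_e hj' b']⟩

variable (M)

def lJ (x : B × Fin 3) : W := M.e (x.2 + 1) x.1
def rJ (x : B × Fin 3) : W := M.e (x.2 + 2) x.1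
def sJ (x : B × Fin 3) : B ⊕ V := Sum.inl x.1
def tJ (x : B × Fin 3) : B ⊕ V := Sum.inr (M.c x.2 x.1)

def lG (x : B × Fin 3) : V := M.c (x.2 + 1) x.1
def rG (x : B × Fin 3) : V := M.c (x.2 + 2) x.1
def sG (x : B × Fin 3) : B ⊕ W := Sum.inl x.1
def tG (x : B × Fin 3) : B ⊕ W := Sum.inr (M.e x.2 x.1)

theorem orthoJ [Fintype B] [Fintype W] : Ortho M.lJ M.rJ (sJ (B := B) (V := V)) M.tJ := by
  intro n φ
  rw [Fintype.sum_prod_type_right]
  have key : ∀ j : Fin 3, ∑ b : B, (n (M.lJ (b, j)) - n (M.rJ (b, j))) *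
      (φ (M.tJ (b, j)) - φ (sJ (b, j))) =
      ∑ b : B, (n (M.e (j + 2) b) - n (M.e (j + 1) b)) * φ (Sum.inl b) := by
    intro j
    have h1 : ∑ b : B, n (M.e (j + 1) b) * φ (Sum.inr (M.c j b)) =
        ∑ w : W, n w * φ (Sum.inr (M.cw j w)) := by
      rw [← Equiv.sum_comp (M.e (j + 1))]
      exact Finset.sum_congr rfl fun b _ => by rw [M.cw_e1]
    have h2 : ∑ b : B, n (M.e (j + 2) b) * φ (Sum.inr (M.c j b)) =
        ∑ w : W, n w * φ (Sum.inr (M.cw j w)) := by
      rw [← Equiv.sum_comp (M.e (j + 2))]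
      exact Finset.sum_congr rfl fun b _ => by rw [M.cw_e2]
    have h3 : ∑ b : B, (n (M.lJ (b, j)) - n (M.rJ (b, j))) *
      (φ (M.tJ (b, j)) - φ (sJ (b, j))) = ∑ b : B, n (M.e (j + 1) b) * φ (Sum.inr (M.c j b)) -
        ∑ b : B, n (M.e (j + 2) b) * φ (Sum.inr (M.c j b)) +
        ∑ b : B, (n (M.e (j + 2) b) - n (M.e (j + 1) b)) * φ (Sum.inl b) := by
      rw [← Finset.sum_sub_distrib, ← Finset.sum_add_distrib]
      apply Finset.sum_congr rfl
      intro b _
      simp only [lJ, rJ, sJ, tJ]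
      ring
    rw [h3, h1, h2]; ring
  rw [Finset.sum_congr rfl fun j _ => key j, Finset.sum_comm]
  apply Finset.sum_eq_zero
  intro b _
  rw [Fin.sum_univ_three]
  simp only [show (0 : Fin 3) + 2 = 2 from rfl, show (0 : Fin 3) + 1 = 1 from rfl,
    show (1 : Fin 3) + 2 = 0 from rfl, show (1 : Fin 3) + 1 = 2 from rfl,
    show (2 : Fin 3) + 2 = 1 from rfl, show (2 : Fin 3) + 1 = 0 from rfl]
  ring

theorem orthoG [Fintype B] [Fintype W] : Ortho M.lG M.rG (sG (B := B) (W := W)) M.tG := by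
  intro n φ
  rw [Fintype.sum_prod_type_right]
  have key : ∀ i : Fin 3, ∑ b : B, (n (M.lG (b, i)) - n (M.rG (b, i))) *
      (φ (M.tG (b, i)) - φ (sG (b, i))) =
      ∑ w : W, (n (M.cw (i + 1) w) - n (M.cw (i + 2) w)) * φ (Sum.inr w) +
      ∑ b : B, (n (M.c (i + 2) b) - n (M.c (i + 1) b)) * φ (Sum.inl b) := by
    intro i
    have h1 : ∑ b : B, n (M.c (i + 1) b) * φ (Sum.inr (M.e i b)) =
        ∑ w : W, n (M.cw (i + 1) w) * φ (Sum.inr w) := by
      rw [← Equiv.sum_comp (M.e i)]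
      exact Finset.sum_congr rfl fun b _ => by rw [M.cw_e (fne1 i).symm]
    have h2 : ∑ b : B, n (M.c (i + 2) b) * φ (Sum.inr (M.e i b)) =
        ∑ w : W, n (M.cw (i + 2) w) * φ (Sum.inr w) := by
      rw [← Equiv.sum_comp (M.e i)]
      exact Finset.sum_congr rfl fun b _ => by rw [M.cw_e (fne2 i).symm]
    have h3 : ∑ b : B, (n (M.lG (b, i)) - n (M.rG (b, i))) *
      (φ (M.tG (b, i)) - φ (sG (b, i))) = ∑ b : B, n (M.c (i + 1) b) * φ (Sum.inr (M.e i b)) -
        ∑ b : B, n (M.c (i + 2) b) * φ (Sum.inr (M.e i b)) +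
        ∑ b : B, (n (M.c (i + 2) b) - n (M.c (i + 1) b)) * φ (Sum.inl b) := by
      rw [← Finset.sum_sub_distrib, ← Finset.sum_add_distrib]
      apply Finset.sum_congr rfl
      intro b _
      simp only [lG, rG, sG, tG]
      ring
    rw [h3, h1, h2, ← Finset.sum_sub_distrib]
    congr 1
    exact Finset.sum_congr rfl fun w _ => by ring
  rw [Finset.sum_congr rfl fun j _ => key j, Finset.sum_add_distrib, Finset.sum_comm,
    Finset.sum_comm (t := (univ : Finset B))]
  have h1 : ∀ w : W, ∑ i : Fin 3, (n (M.cw (i + 1) w) - n (M.cw (i + 2) w)) * φ (Sum.inr w) = 0 := by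
    intro w
    rw [Fin.sum_univ_three]
    simp only [show (0 : Fin 3) + 2 = 2 from rfl, show (0 : Fin 3) + 1 = 1 from rfl,
      show (1 : Fin 3) + 2 = 0 from rfl, show (1 : Fin 3) + 1 = 2 from rfl,
      show (2 : Fin 3) + 2 = 1 from rfl, show (2 : Fin 3) + 1 = 0 from rfl]
    ring
  have h2 : ∀ b : B, ∑ i : Fin 3, (n (M.c (i + 2) b) - n (M.c (i + 1) b)) * φ (Sum.inl b) = 0 := by
    intro b
    rw [Fin.sum_univ_three]
    simp only [show (0 : Fin 3) + 2 = 2 from rfl, show (0 : Fin 3) + 1 = 1 from rfl,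
      show (1 : Fin 3) + 2 = 0 from rfl, show (1 : Fin 3) + 1 = 2 from rfl,
      show (2 : Fin 3) + 2 = 1 from rfl, show (2 : Fin 3) + 1 = 0 from rfl]
    ring
  rw [Finset.sum_congr rfl fun w _ => h1 w, Finset.sum_congr rfl fun b _ => h2 b]
  simp

variable {M}

theorem Conn.jD (hM : M.Conn) (b0 : B) (φ : B ⊕ V → ℚ)
    (h : ∀ x, φ (sJ x) = φ (M.tJ x)) (y : B ⊕ V) : φ y = φ (Sum.inl b0) := by
  have h0 : ∀ b j, φ (Sum.inl b) = φ (Sum.inr (M.c j b)) := fun b j => h (b, j)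
  have h1 : ∀ b b', φ (Sum.inl b) = φ (Sum.inl b') := by
    apply hM.const (fun b => φ (Sum.inl b))
    intro b b' i i' hb
    obtain ⟨j, hj⟩ := common_face hb
    rw [h0 b j, h0 b' j, hj]
  rcases y with b | v
  · exact h1 b b0
  · obtain ⟨j, b, rfl⟩ := M.surj v
    rw [← h0 b j]; exact h1 b b0

theorem jA_blk (n : W → ℚ) (b : B) (h : ∀ j, n (M.e (j + 1) b) = n (M.e (j + 2) b)) (i i' : Fin 3) :
    n (M.e i b) = n (M.e i' b) := by
  have h0 := h 0
  have h1 := h 1
  have h2 := h 2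
  simp only [show (0 : Fin 3) + 2 = 2 from rfl, show (0 : Fin 3) + 1 = 1 from rfl,
      show (1 : Fin 3) + 2 = 0 from rfl, show (1 : Fin 3) + 1 = 2 from rfl,
      show (2 : Fin 3) + 2 = 1 from rfl, show (2 : Fin 3) + 1 = 0 from rfl] at h0 h1 h2
  have h3 : ∀ i : Fin 3, n (M.e i b) = n (M.e 0 b) := by
    intro i
    fin_cases i
    · rfl
    · show n (M.e 1 b) = n (M.e 0 b); rw [h2]
    · show n (M.e 2 b) = n (M.e 0 b); rw [h1]
  rw [h3 i, h3 i']

theorem Conn.jA (hM : M.Conn) (b0 : B) (n : W → ℚ)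
    (h : ∀ x, n (M.lJ x) = n (M.rJ x)) (w : W) : n w = n (M.e 0 b0) := by
  have h0 : ∀ b i i', n (M.e i b) = n (M.e i' b) := fun b =>
    jA_blk n b (fun j => h (b, j))
  have h1 : ∀ b b', n (M.e 0 b) = n (M.e 0 b') := by
    apply hM.const (fun b => n (M.e 0 b))
    intro b b' i i' hb
    rw [h0 b 0 i, hb, h0 b' i' 0]
  have h2 := h1 ((M.e 0).symm w) b0
  rwa [Equiv.apply_symm_apply] at h2

theorem Conn.gD (hM : M.Conn) (b0 : B) (φ : B ⊕ W → ℚ)
    (h : ∀ x, φ (sG x) = φ (M.tG x)) (y : B ⊕ W) : φ y = φ (Sum.inl b0) := by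
  have h0 : ∀ b j, φ (Sum.inl b) = φ (Sum.inr (M.e j b)) := fun b j => h (b, j)
  have h1 : ∀ b b', φ (Sum.inl b) = φ (Sum.inl b') := by
    apply hM.const (fun b => φ (Sum.inl b))
    intro b b' i i' hb
    rw [h0 b i, h0 b' i', hb]
  rcases y with b | w
  · exact h1 b b0
  · have h2 := h0 ((M.e 0).symm w) 0
    rw [Equiv.apply_symm_apply] at h2
    rw [← h2]; exact h1 _ b0

theorem Conn.gA (hM : M.Conn) (b0 : B) (n : V → ℚ)
    (h : ∀ x, n (M.lG x) = n (M.rG x)) (v : V) : n v = n (M.c 0 b0) := by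
  have h0 : ∀ b i i', n (M.c i b) = n (M.c i' b) := by
    intro b
    have h0 := h (b, 0)
    have h1 := h (b, 1)
    have h2 := h (b, 2)
    simp only [lG, rG, show (0 : Fin 3) + 2 = 2 from rfl, show (0 : Fin 3) + 1 = 1 from rfl,
        show (1 : Fin 3) + 2 = 0 from rfl, show (1 : Fin 3) + 1 = 2 from rfl,
        show (2 : Fin 3) + 2 = 1 from rfl, show (2 : Fin 3) + 1 = 0 from rfl] at h0 h1 h2
    have h3 : ∀ i : Fin 3, n (M.c i b) = n (M.c 0 b) := by
      intro i
      fin_cases i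
      · rfl
      · show n (M.c 1 b) = n (M.c 0 b); rw [h2]
      · show n (M.c 2 b) = n (M.c 0 b); rw [h1]
    intro i i'
    rw [h3 i, h3 i']
  have h1 : ∀ b b', n (M.c 0 b) = n (M.c 0 b') := by
    apply hM.const (fun b => n (M.c 0 b))
    intro b b' i i' hb
    obtain ⟨j, hj⟩ := common_face hb
    rw [h0 b 0 j, hj, h0 b' j 0]
  obtain ⟨j, b, rfl⟩ := M.surj v
  rw [h0 b j 0]; exact h1 b b0

section Fin

variable [Fintype B] [Fintype W] [Fintype V] [DecidableEq B] [DecidableEq W] [DecidableEq V]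

theorem card_W (M : Net B W V) : Fintype.card W = Fintype.card B :=
  (Fintype.card_congr (M.e 0)).symm

/-- Euler's inequality -/
theorem euler_le (hM : M.Conn) (b0 : B) : Fintype.card V ≤ Fintype.card B + 2 := by
  have h := card_le M.lJ M.rJ (sJ (B := B) (V := V)) M.tJ M.orthoJ (M.e 0 b0) (Sum.inl b0)
    (hM.jA b0) (hM.jD b0)
  rw [Fintype.card_sum, Fintype.card_prod, Fintype.card_fin, card_W M] at h
  omega

/-- every cycle of `J` is a boundary -/
theorem exists_side (hM : M.Conn) (hV : Fintype.card V = Fintype.card B + 2) (b0 : B)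
    (x : B × Fin 3 → ℚ) (hx : ∀ φ : B ⊕ V → ℚ, ∑ e, x e * (φ (M.tJ e) - φ (sJ e)) = 0) :
    ∃ n : W → ℚ, ∀ e, x e = n (M.lJ e) - n (M.rJ e) := by
  refine exact_of_card M.lJ M.rJ (sJ (B := B) (V := V)) M.tJ M.orthoJ ?_ (M.e 0 b0) (Sum.inl b0)
    (hM.jA b0) (hM.jD b0) x hx
  rw [Fintype.card_sum, Fintype.card_prod, Fintype.card_fin, card_W M]
  omega

end Fin

end Net

end Vale.Agent.P039.B745
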