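import Mathlib.LinearAlgebra.Dual.Lemmas
import Mathlib.LinearAlgebra.FiniteDimensional.Basic
import Mathlib.Data.Rat.Defs
import Mathlib.Tactic

/-! Linear algebra of two-dimensional complexes: cells `P`, edges `E`, points `X`. -/

set_option linter.all false

namespace Vale.Agent.P039.B745

open Finset

section Rank

variable {P E X : Type} [Fintype P] [Fintype E] [Fintype X] [DecidableEq P] [DecidableEq E]
  [DecidableEq X]

/-- The boundary of a boundary is zero. -/
def Ortho (l r : E → P) (s t : E → X) : Prop :=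
  ∀ (n : P → ℚ) (φ : X → ℚ), ∑ e, (n (l e) - n (r e)) * (φ (t e) - φ (s e)) = 0

/-- extension by zero -/
def ext0 {A : Type} [DecidableEq A] (K : Finset A) (n : K → ℚ) (p : A) : ℚ :=
  if h : p ∈ K then n ⟨p, h⟩ else 0

theorem ext0_add {A : Type} [DecidableEq A] (K : Finset A) (n m : K → ℚ) (p : A) :
    ext0 K (n + m) p = ext0 K n p + ext0 K m p := by
  unfold ext0; split_ifs <;> simp

theorem ext0_smul {A : Type} [DecidableEq A] (K : Finset A) (a : ℚ) (n : K → ℚ) (p : A) :
    ext0 K (a • n) p = a * ext0 K n p := by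
  unfold ext0; split_ifs <;> simp

theorem ext0_mem {A : Type} [DecidableEq A] (K : Finset A) (n : K → ℚ) (p : K) :
    ext0 K n p.1 = n p := by
  unfold ext0; simp

theorem ext0_not_mem {A : Type} [DecidableEq A] (K : Finset A) (n : K → ℚ) {p : A}
    (h : p ∉ K) : ext0 K n p = 0 := by
  unfold ext0; simp [h]

theorem rank_le (l r : E → P) (s t : E → X) (h : Ortho l r s t)
    (K : Finset P) (Y : Finset X) (x0 : X) (hx0 : x0 ∈ Y)
    (hA : ∀ n : P → ℚ, (∀ p, p ∉ K → n p = 0) → (∀ e, n (l e) = n (r e)) → ∀ p, n p = 0)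
    (hD : ∀ φ : X → ℚ, (∀ e, (l e ∈ K ∨ r e ∈ K) → φ (s e) = φ (t e)) → ∀ x ∈ Y, φ x = φ x0) :
    K.card + Y.card ≤ (univ.filter fun e => l e ∈ K ∨ r e ∈ K).card + 1 := by
  by_contra hlt
  push Not at hlt
  set EK := univ.filter fun e => l e ∈ K ∨ r e ∈ K with hEK
  let Φ : ((K → ℚ) × (Y → ℚ)) →ₗ[ℚ] ((EK → ℚ) × ℚ) :=
    { toFun := fun x => (fun e => ext0 K x.1 (l e.1) - ext0 K x.1 (r e.1) +
        (ext0 Y x.2 (t e.1) - ext0 Y x.2 (s e.1)), ext0 Y x.2 x0)
      map_add' := by
        intro x y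
        refine Prod.ext ?_ ?_
        · funext e
          simp only [Prod.fst_add, Prod.snd_add, ext0_add, Pi.add_apply]
          ring
        · simp only [Prod.fst_add, Prod.snd_add, ext0_add]
      map_smul' := by
        intro a x
        refine Prod.ext ?_ ?_
        · funext e
          simp only [Prod.smul_fst, Prod.smul_snd, ext0_smul, Pi.smul_apply, RingHom.id_apply,
            smul_eq_mul]
          ring
        · simp only [Prod.smul_fst, Prod.smul_snd, ext0_smul, RingHom.id_apply, smul_eq_mul] }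
  have hfr : Module.finrank ℚ ((EK → ℚ) × ℚ) < Module.finrank ℚ ((K → ℚ) × (Y → ℚ)) := by
    simp only [Module.finrank_prod, Module.finrank_fintype_fun_eq_card, Fintype.card_coe,
      Module.finrank_self]
    omega
  have hker := LinearMap.ker_ne_bot_of_finrank_lt (f := Φ) hfr
  obtain ⟨x, hx, hx0'⟩ := Submodule.exists_mem_ne_zero_of_ne_bot hker
  apply hx0'
  obtain ⟨n, φ⟩ := x
  rw [LinearMap.mem_ker] at hx
  have h1 : ∀ e, (l e ∈ K ∨ r e ∈ K) → ext0 K n (l e) - ext0 K n (r e) +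
      (ext0 Y φ (t e) - ext0 Y φ (s e)) = 0 := by
    intro e he
    have := congrFun (congrArg Prod.fst hx) ⟨e, by rw [hEK]; simpa using he⟩
    exact this
  have h2 : ext0 Y φ x0 = 0 := congrArg Prod.snd hx
  have h3 : ∀ e, ¬ (l e ∈ K ∨ r e ∈ K) → ext0 K n (l e) - ext0 K n (r e) = 0 := by
    intro e he
    push Not at he
    rw [ext0_not_mem K n he.1, ext0_not_mem K n he.2, sub_zero]
  have h4 := h (ext0 K n) (ext0 Y φ)
  have h5 : ∑ e, (ext0 K n (l e) - ext0 K n (r e)) * (ext0 Y φ (t e) - ext0 Y φ (s e)) =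
      ∑ e, - (ext0 K n (l e) - ext0 K n (r e)) ^ 2 := by
    apply Finset.sum_congr rfl
    intro e _
    by_cases he : l e ∈ K ∨ r e ∈ K
    · have h6 := h1 e he
      have h7 : ext0 Y φ (t e) - ext0 Y φ (s e) = - (ext0 K n (l e) - ext0 K n (r e)) := by
        linarith
      rw [h7]; ring
    · rw [h3 e he]; ring
  rw [h5, Finset.sum_neg_distrib, neg_eq_zero,
    Finset.sum_eq_zero_iff_of_nonneg (fun e _ => sq_nonneg _)] at h4
  have h6 : ∀ e, ext0 K n (l e) = ext0 K n (r e) := by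
    intro e
    have := h4 e (Finset.mem_univ _)
    have := pow_eq_zero_iff (two_ne_zero) |>.1 this
    linarith
  have h7 := hA (ext0 K n) (fun p hp => ext0_not_mem K n hp) h6
  have h8 := hD (ext0 Y φ) (fun e he => by
    have := h1 e he
    rw [h6 e] at this
    linarith)
  refine Prod.ext ?_ ?_
  · funext p
    show n p = 0
    rw [← ext0_mem K n p, h7]
  · funext y
    show φ y = 0
    rw [← ext0_mem Y φ y, h8 _ y.2, h2]

/-- the map `(n, φ) ↦ A n + D φ` with two normalisations -/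
def Phi (l r : E → P) (s t : E → X) (p0 : P) (x0 : X) :
    ((P → ℚ) × (X → ℚ)) →ₗ[ℚ] ((E → ℚ) × (ℚ × ℚ)) where
  toFun := fun x => (fun e => x.1 (l e) - x.1 (r e) + (x.2 (t e) - x.2 (s e)), (x.1 p0, x.2 x0))
  map_add' := by
    intro x y
    refine Prod.ext ?_ (Prod.ext ?_ ?_)
    · funext e
      simp only [Prod.fst_add, Prod.snd_add, Pi.add_apply]
      ring
    · rfl
    · rfl
  map_smul' := by
    intro a x
    refine Prod.ext ?_ (Prod.ext ?_ ?_)
    · funext e
      simp only [Prod.smul_fst, Prod.smul_snd, Pi.smul_apply, RingHom.id_apply,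
        smul_eq_mul]
      ring
    · rfl
    · rfl

theorem Phi_inj (l r : E → P) (s t : E → X) (h : Ortho l r s t) (p0 : P) (x0 : X)
    (hA : ∀ n : P → ℚ, (∀ e, n (l e) = n (r e)) → ∀ p, n p = n p0)
    (hD : ∀ φ : X → ℚ, (∀ e, φ (s e) = φ (t e)) → ∀ x, φ x = φ x0) :
    Function.Injective (Phi l r s t p0 x0) := by
  rw [← LinearMap.ker_eq_bot, LinearMap.ker_eq_bot']
  rintro ⟨n, φ⟩ hx
  have h1 : ∀ e, n (l e) - n (r e) + (φ (t e) - φ (s e)) = 0 := fun e =>
    congrFun (congrArg Prod.fst hx) e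
  have h2 : n p0 = 0 := congrArg (fun z => z.2.1) hx
  have h3 : φ x0 = 0 := congrArg (fun z => z.2.2) hx
  have h4 := h n φ
  have h5 : ∑ e, (n (l e) - n (r e)) * (φ (t e) - φ (s e)) =
      ∑ e, - (n (l e) - n (r e)) ^ 2 := by
    apply Finset.sum_congr rfl
    intro e _
    have h6 : φ (t e) - φ (s e) = - (n (l e) - n (r e)) := by
      have := h1 e; linarith
    rw [h6]; ring
  rw [h5, Finset.sum_neg_distrib, neg_eq_zero,
    Finset.sum_eq_zero_iff_of_nonneg (fun e _ => sq_nonneg _)] at h4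
  have h6 : ∀ e, n (l e) = n (r e) := by
    intro e
    have := h4 e (Finset.mem_univ _)
    have := pow_eq_zero_iff (two_ne_zero) |>.1 this
    linarith
  refine Prod.ext ?_ ?_
  · funext p
    show n p = 0
    rw [hA n h6 p, h2]
  · funext y
    show φ y = 0
    rw [hD φ (fun e => by have := h1 e; rw [h6 e] at this; linarith) y, h3]

/-- the genus inequality -/
theorem card_le (l r : E → P) (s t : E → X) (h : Ortho l r s t) (p0 : P) (x0 : X)
    (hA : ∀ n : P → ℚ, (∀ e, n (l e) = n (r e)) → ∀ p, n p = n p0)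
    (hD : ∀ φ : X → ℚ, (∀ e, φ (s e) = φ (t e)) → ∀ x, φ x = φ x0) :
    Fintype.card P + Fintype.card X ≤ Fintype.card E + 2 := by
  have h1 := LinearMap.finrank_le_finrank_of_injective (Phi_inj l r s t h p0 x0 hA hD)
  simp only [Module.finrank_prod, Module.finrank_fintype_fun_eq_card, Module.finrank_self] at h1
  omega

theorem exact_of_card (l r : E → P) (s t : E → X) (h : Ortho l r s t)
    (hcard : Fintype.card P + Fintype.card X = Fintype.card E + 2) (p0 : P) (x0 : X)
    (hA : ∀ n : P → ℚ, (∀ e, n (l e) = n (r e)) → ∀ p, n p = n p0)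
    (hD : ∀ φ : X → ℚ, (∀ e, φ (s e) = φ (t e)) → ∀ x, φ x = φ x0)
    (x : E → ℚ) (hx : ∀ φ : X → ℚ, ∑ e, x e * (φ (t e) - φ (s e)) = 0) :
    ∃ n : P → ℚ, ∀ e, x e = n (l e) - n (r e) := by
  have hfr : Module.finrank ℚ ((P → ℚ) × (X → ℚ)) = Module.finrank ℚ ((E → ℚ) × (ℚ × ℚ)) := by
    simp only [Module.finrank_prod, Module.finrank_fintype_fun_eq_card, Module.finrank_self]
    omega
  have hsurj : Function.Surjective (Phi l r s t p0 x0) :=
    (LinearMap.injective_iff_surjective_of_finrank_eq_finrank hfr).1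
      (Phi_inj l r s t h p0 x0 hA hD)
  obtain ⟨⟨n, φ⟩, hnφ⟩ := hsurj (x, (0, 0))
  have h1 : ∀ e, n (l e) - n (r e) + (φ (t e) - φ (s e)) = x e := fun e =>
    congrFun (congrArg Prod.fst hnφ) e
  have h2 := hx φ
  have h3 := h n φ
  have h4 : ∑ e, (φ (t e) - φ (s e)) ^ 2 = 0 := by
    have : ∑ e, x e * (φ (t e) - φ (s e)) = ∑ e, (n (l e) - n (r e)) * (φ (t e) - φ (s e)) +
        ∑ e, (φ (t e) - φ (s e)) ^ 2 := by
      rw [← Finset.sum_add_distrib]
      apply Finset.sum_congr rfl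
      intro e _
      rw [← h1 e]; ring
    rw [this, h3, zero_add] at h2
    exact h2
  rw [Finset.sum_eq_zero_iff_of_nonneg (fun e _ => sq_nonneg _)] at h4
  refine ⟨n, fun e => ?_⟩
  have h5 := h4 e (Finset.mem_univ _)
  have h6 := pow_eq_zero_iff (two_ne_zero) |>.1 h5
  rw [← h1 e, h6, add_zero]

/-- prescribing the curl -/
theorem exists_curl (l r : E → P) (p0 : P)
    (hA : ∀ n : P → ℚ, (∀ e, n (l e) = n (r e)) → ∀ p, n p = n p0)
    (y : P → ℚ) (hy : ∑ p, y p = 0) :
    ∃ u : E → ℚ, ∀ n : P → ℚ, ∑ e, (n (l e) - n (r e)) * u e = ∑ p, n p * y p := by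
  let A : (P → ℚ) →ₗ[ℚ] (E → ℚ) :=
    { toFun := fun n e => n (l e) - n (r e)
      map_add' := by intro x y; funext e; simp only [Pi.add_apply]; ring
      map_smul' := by
        intro a x; funext e
        simp only [Pi.smul_apply, smul_eq_mul, RingHom.id_apply]; ring }
  let L : (P → ℚ) →ₗ[ℚ] ℚ :=
    { toFun := fun n => ∑ p, n p * y p
      map_add' := by
        intro x z; simp only [Pi.add_apply, add_mul, Finset.sum_add_distrib]
      map_smul' := by
        intro a x
        simp only [Pi.smul_apply, smul_eq_mul, RingHom.id_apply, Finset.mul_sum, mul_assoc] }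
  have hL : L ∈ (LinearMap.ker A).dualAnnihilator := by
    rw [Submodule.mem_dualAnnihilator]
    intro n hn
    rw [LinearMap.mem_ker] at hn
    have h1 : ∀ e, n (l e) = n (r e) := fun e => by
      have : n (l e) - n (r e) = 0 := congrFun hn e
      linarith
    have h2 := hA n h1
    show ∑ p, n p * y p = 0
    rw [Finset.sum_congr rfl (fun p _ => by rw [h2 p]), ← Finset.mul_sum, hy, mul_zero]
  rw [← LinearMap.range_dualMap_eq_dualAnnihilator_ker] at hL
  obtain ⟨ψ, hψ⟩ := hL
  refine ⟨fun e => ψ (fun j => if e = j then 1 else 0), fun n => ?_⟩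
  have h1 : ψ (A n) = L n := by
    rw [← hψ]; rfl
  rw [LinearMap.pi_apply_eq_sum_univ ψ (A n)] at h1
  exact h1

end Rank

end Vale.Agent.P039.B745
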