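import Vale.Agent.P039.B745.Count

/-! The sign rule for alternating cycles. -/

set_option linter.all false

namespace Vale.Agent.P039.B745

open Finset

theorem eps_pm (x : Fin 3) (h : x ≠ 0) : eps x = 1 ∨ eps x = -1 := by revert x; decide
theorem eps_neg (x : Fin 3) : eps (-x) = - eps x := by revert x; decide

theorem sum_prod_pm {α : Type} [DecidableEq α] (C : Finset α) (ε : α → ℤ)
    (h : ∀ b ∈ C, ε b = 1 ∨ ε b = -1) :
    ∃ p q : ℕ, C.card = p + q ∧ ∑ b ∈ C, ε b = (p : ℤ) - q ∧ ∏ b ∈ C, ε b = (-1) ^ q := by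
  induction C using Finset.induction_on with
  | empty => exact ⟨0, 0, by simp⟩
  | insert a C ha ih =>
    obtain ⟨p, q, h1, h2, h3⟩ := ih (fun b hb => h b (Finset.mem_insert_of_mem hb))
    rw [Finset.card_insert_of_notMem ha, Finset.sum_insert ha, Finset.prod_insert ha]
    rcases h a (Finset.mem_insert_self _ _) with h4 | h4
    · refine ⟨p + 1, q, by omega, ?_, ?_⟩
      · rw [h4, h2]; push_cast; ring
      · rw [h4, h3]; ring
    · refine ⟨p, q + 1, by omega, ?_, ?_⟩
      · rw [h4, h2]; push_cast; ring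
      · rw [h4, h3]; ring

variable {B W V : Type} [Fintype B] [Fintype W] [Fintype V]
  [DecidableEq B] [DecidableEq W] [DecidableEq V]

/-- the prescribed curl -/
def curl (M : Net B W V) (b0 : B) (w : W) : ℚ :=
  if w = M.e 0 b0 then (Fintype.card W : ℚ) - 1 else -1

theorem curl_sum (M : Net B W V) (b0 : B) : ∑ w, curl M b0 w = 0 := by
  unfold curl
  rw [← Finset.sum_erase_add univ _ (Finset.mem_univ (M.e 0 b0))]
  rw [if_pos rfl]
  have h1 : ∀ w ∈ univ.erase (M.e 0 b0),
      (if w = M.e 0 b0 then (Fintype.card W : ℚ) - 1 else -1) = -1 := by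
    intro w hw
    rw [if_neg (Finset.ne_of_mem_erase hw)]
  rw [Finset.sum_congr rfl h1, Finset.sum_const, Finset.card_erase_of_mem (Finset.mem_univ _),
    Finset.card_univ]
  have h2 : 1 ≤ Fintype.card W := Fintype.card_pos_iff.2 ⟨M.e 0 b0⟩
  rw [nsmul_eq_mul]
  push_cast [Nat.cast_sub h2]
  ring

theorem exists_u (M : Net B W V) (hM : M.Conn) (b0 : B) :
    ∃ u : B × Fin 3 → ℚ, ∀ n : W → ℚ,
      ∑ x, Cyc.bd M n x * u x = ∑ w, n w * curl M b0 w :=
  exists_curl M.lJ M.rJ (M.e 0 b0) (hM.jA b0) (curl M b0) (curl_sum M b0)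

namespace Cyc

variable {M : Net B W V} {b0 : B} {f g : B → Fin 3} {C : Finset B} {π : B → B}

theorem star (h : Cyc M b0 f g C π) (hM : M.Conn)
    (hV : Fintype.card V = Fintype.card B + 2) (u : B × Fin 3 → ℚ)
    (hu : ∀ n : W → ℚ, ∑ x, bd M n x * u x = ∑ w, n w * curl M b0 w) :
    ∃ j : ℕ, C.card = 2 * j + 3 ∧
      0 < (-1) ^ j * ((∏ b ∈ C, eps (g b - f b) : ℤ) : ℚ) *
        ∑ b ∈ C, (u (b, f b) - u (b, g b)) := by
  obtain ⟨I, hI⟩ := h.exists_region hM hV
  have hbd : ∀ x, bd M (ind I) x = (if M.lJ x ∈ I then 1 else 0) - (if M.rJ x ∈ I then 1 else 0) :=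
    fun x => rfl
  have hoff : ∀ x, ¬ On f g C x → (M.lJ x ∈ I ↔ M.rJ x ∈ I) := by
    intro x hx
    have h1 := hI x
    rw [ch_off hx, hbd] at h1
    split_ifs at h1 with h2 h3 h3
    · simp [h2, h3]
    · norm_num at h1
    · norm_num at h1
    · simp [h2, h3]
  have hf : ∀ b ∈ C, M.lJ (b, f b) ∈ I ∧ M.rJ (b, f b) ∉ I := by
    intro b hb
    have h1 := hI (b, f b)
    rw [h.ch_f hb, hbd] at h1
    split_ifs at h1 with h2 h3 h3
    · norm_num at h1
    · exact ⟨h2, h3⟩
    · norm_num at h1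
    · norm_num at h1
  have hg : ∀ b ∈ C, M.lJ (b, g b) ∉ I ∧ M.rJ (b, g b) ∈ I := by
    intro b hb
    have h1 := hI (b, g b)
    rw [h.ch_g hb, hbd] at h1
    split_ifs at h1 with h2 h3 h3
    · norm_num at h1
    · norm_num at h1
    · exact ⟨h2, h3⟩
    · norm_num at h1
  have hon : ∀ b ∈ C, ¬ (M.lJ (b, f b) ∈ I ↔ M.rJ (b, f b) ∈ I) := by
    intro b hb h1
    exact (hf b hb).2 (h1.1 (hf b hb).1)
  obtain ⟨b1, hb1⟩ := h.ne
  -- the sum of the positions
  have hD : ∑ b, kB (zS M I b) = ∑ b ∈ C, eps (g b - f b) := by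
    rw [← Finset.sum_subset (Finset.subset_univ C)]
    · apply Finset.sum_congr rfl
      intro b hb
      apply kB_eps _ _ _ (h.fg b hb)
      · exact decide_eq_true (hf b hb).1
      · exact decide_eq_false (hf b hb).2
      · exact decide_eq_false (hg b hb).1
      · exact decide_eq_true (hg b hb).2
    · intro b _ hb
      apply kB_const
      intro j
      have := hoff (b, j) (fun ho => hb ho.1)
      unfold zS
      exact decide_eq_decide.2 this
  have hDc : ∑ b, kB (zS M Iᶜ b) = - ∑ b ∈ C, eps (g b - f b) := by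
    rw [← hD, ← Finset.sum_neg_distrib]
    apply Finset.sum_congr rfl
    intro b _
    rw [← kB_not]
    congr 1
    funext i
    unfold zS
    simp
  have r1 := h.region_le hM I ⟨_, (hf b1 hb1).2⟩ ⟨_, (hf b1 hb1).1⟩ hoff hon
  have r2 := h.region_le hM Iᶜ ⟨M.lJ (b1, f b1), by simpa using (hf b1 hb1).1⟩
    ⟨M.rJ (b1, f b1), by simpa using (hf b1 hb1).2⟩
    (fun x hx => by
      simp only [Finset.mem_compl]
      exact not_congr (hoff x hx))
    (fun b hb => by
      simp only [Finset.mem_compl]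
      intro h1
      exact hon b hb (not_iff_not.1 h1))
  rw [hD] at r1
  rw [hDc] at r2
  have hb0 : ∀ j, M.e (j + 1) b0 ∈ I ↔ M.e (j + 2) b0 ∈ I := fun j =>
    hoff (b0, j) (fun ho => h.off ho.1)
  have e01 : M.e 0 b0 ∈ I ↔ M.e 1 b0 ∈ I := hb0 2
  have e20 : M.e 2 b0 ∈ I ↔ M.e 0 b0 ∈ I := hb0 1
  have hsum : ∑ b ∈ C, (u (b, f b) - u (b, g b)) = ∑ w ∈ I, curl M b0 w := by
    rw [← ch_sum, ← Finset.sum_congr rfl (fun x _ => by rw [← hI x]), hu]
    unfold ind
    simp only [ite_mul, one_mul, zero_mul]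
    rw [Finset.sum_ite_mem, Finset.univ_inter]
  obtain ⟨p, q, hk, hs, hp⟩ := sum_prod_pm C (fun b => eps (g b - f b)) (fun b hb =>
    eps_pm _ (sub_ne_zero.2 (h.fg b hb).symm))
  rw [hs] at r1 r2
  by_cases h0 : M.e 0 b0 ∈ I
  · have t1 : tB (zS M I b0) = 1 := by
      unfold tB zS
      simp [h0]
    have h1' : (p : ℤ) = q + 3 := by
      rw [t1] at r1
      have : (0 : ℤ) ≤ tB (zS M Iᶜ b0) := Int.natCast_nonneg _
      push_cast at r1
      omega
    refine ⟨q, by omega, ?_⟩
    have h2 : ∑ w ∈ I, curl M b0 w = (Fintype.card W : ℚ) - I.card := by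
      rw [← Finset.sum_erase_add I _ h0]
      have h3 : ∀ w ∈ I.erase (M.e 0 b0), curl M b0 w = -1 := by
        intro w hw
        unfold curl
        rw [if_neg (Finset.ne_of_mem_erase hw)]
      rw [Finset.sum_congr rfl h3, Finset.sum_const, Finset.card_erase_of_mem h0]
      have h4 : 1 ≤ I.card := Finset.card_pos.2 ⟨_, h0⟩
      unfold curl
      rw [if_pos rfl, nsmul_eq_mul]
      push_cast [Nat.cast_sub h4]
      ring
    have h3 : I.card < Fintype.card W := by
      rw [← Finset.card_univ]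
      apply Finset.card_lt_card
      rw [Finset.ssubset_univ_iff]
      intro h4
      apply (hf b1 hb1).2
      rw [h4]; exact Finset.mem_univ _
    rw [hp, hsum, h2]
    push_cast
    rw [← mul_pow]
    norm_num
    exact_mod_cast h3
  · have t2 : tB (zS M Iᶜ b0) = 1 := by
      unfold tB zS
      simp [h0]
    have h1' : (q : ℤ) = p + 3 := by
      rw [t2] at r2
      have : (0 : ℤ) ≤ tB (zS M I b0) := Int.natCast_nonneg _
      push_cast at r2
      omega
    refine ⟨p, by omega, ?_⟩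
    have h2 : ∑ w ∈ I, curl M b0 w = - (I.card : ℚ) := by
      have h3 : ∀ w ∈ I, curl M b0 w = -1 := by
        intro w hw
        unfold curl
        rw [if_neg]
        rintro rfl
        exact h0 hw
      rw [Finset.sum_congr rfl h3, Finset.sum_const, nsmul_eq_mul]
      ring
    have h3 : 0 < I.card := Finset.card_pos.2 ⟨_, (hf b1 hb1).1⟩
    have h4 : q = p + 3 := by omega
    rw [hp, hsum, h2, h4]
    push_cast
    rw [pow_add, ← mul_assoc, ← mul_pow]
    norm_num
    exact Finset.card_pos.1 h3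

end Cyc

end Vale.Agent.P039.B745
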